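import Crest.Agent.X212.Eqv71.Nk1
import Crest.Agent.X212.An.Prt

/-! DEAD (helper36), part 1: terms at a configuration whose spinor vanishes on a clopen set. -/

set_option autoImplicit false
set_option linter.unusedSectionVars false
noncomputable section
open scoped Manifold ContDiff Topology InnerProductSpace
open MeasureTheory Set Function Filter

namespace Crest.Agent.X212.Dead36
open An Wz78 Sob92 Mp86 Dgr80 Nd18 Cyf70 Eqv71
open Wrd81 (wd)
open Cyc79 (Cy bf wv gh)

variable {E : Type} [NormedAddCommGroup E] [NormedSpace ℝ E] [FiniteDimensional ℝ E]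
  [MeasurableSpace E] [BorelSpace E]
  {HM : Type} [TopologicalSpace HM] {I : ModelWithCorners ℝ E HM} [I.Boundaryless]
  {M : Type} [TopologicalSpace M] [ChartedSpace HM M] [IsManifold I ∞ M]
  [MeasurableSpace M] [BorelSpace M] [T2Space M] [SecondCountableTopology M]
  {lam : Type} [Fintype lam] {O : Set M} {r n : ℕ} {x : M}

section gen
variable {ι : Type} [Fintype ι]

/-- the spinor vanishes on the clopen set `O` -/
structure ZO (F : Fr I M ι) (c : Cfg M ι lam r) (O : Set M) : Prop where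
  cl : IsClopen O
  bu : Bumps I F.e F.dv
  mc : Mc I c.W
  ma : Mc I (c.m.adW c.W)
  z : ∀ x ∈ O, c.Φ x = 0

variable {F : Fr I M ι} {c : Cfg M ι lam r}

theorem res_on {V : Type} [NormedAddCommGroup V] [InnerProductSpace ℝ V]
    {A : ι → M → V →L[ℝ] V} {s : M → V} (hO : IsClopen O) (hB : Bumps I F.e F.dv) (hA : Mc I A)
    (h : ∀ x ∈ O, s x = 0) (hx : x ∈ O) : F.res A s x = 0 :=
  res_off hO.compl hB hA (fun y hy => h y (not_not.1 hy)) (not_not.2 hx)

theorem gc_zero {V U : Type} [NormedAddCommGroup V] [InnerProductSpace ℝ V] [CompleteSpace V]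
    [NormedAddCommGroup U] [InnerProductSpace ℝ U] [CompleteSpace U] {A : ι → M → CL V V}
    (hB : Bumps I F.e F.dv) (hA : Mc I A) (ρ : CL U (CL V V)) (s : M → V) (w : List (SL M V)) :
    gc F A ρ s w 0 = 0 := by
  induction w with
  | nil => rfl
  | cons t w ih =>
    cases t with
    | op T =>
      rw [gc, show slT F A (.op T) 0 = 0 from funext fun x => by simp [slT], ih]
    | G =>
      funext x
      rw [gc, res_zero hB hA, ih]
      ext a
      simp [cur, tp, nab]

theorem la_con : c.con.la F = c.la F := funext fun t => by cases t <;> rfl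

theorem laS_con : laS c.con = laS c := funext fun t => by cases t <;> rfl

theorem bf_con : bf F c.con = bf F c := by
  funext f f'; unfold bf; rw [la_con]

theorem wv_con : wv F c.con = wv F c := rfl

theorem gh_con : gh F c.con = gh F c := by
  funext f f' w w' l x; unfold gh; rw [bf_con]; rfl

variable (c) in
/-- seeds which do not see the spinor -/
def SR (S₀ : Sed M ι lam 0) (S : Sed M ι lam r) : Prop := S₀.s c.con = S.s c ∧ S₀.sA c.con = S.sA c

theorem sr_cy (d : Cy M) : SR c (d.sed F) (d.sed F) :=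
  ⟨by funext x; simp only [Cy.sed, Cy.al, Cy.be, bf_con]; rfl,
    by funext l x; simp only [Cy.sed, gh_con]; rfl⟩

theorem SR.wd {S₀ : Sed M ι lam 0} {S : Sed M ι lam r} (h : SR c S₀ S) (w : List (La M)) :
    SR c (S₀.wd F w) (S.wd F w) :=
  ⟨by simp only [Sed.wd, la_con, h.1], by funext l x; simp only [Sed.wd, laS_con, h.1, h.2]⟩

namespace ZO
variable (h : ZO F c O)
include h

theorem con : ZO F c.con O := ⟨h.cl, h.bu, h.mc, h.ma, fun _ _ => rfl⟩

theorem lt {s : M → c.m.V} (hs : ∀ x ∈ O, s x = 0) (u : SW M) :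
    ∀ x ∈ O, wd (c.lt F) s u x = 0 := by
  induction u with
  | nil => exact hs
  | cons t u ih =>
    intro x hx
    show c.lt F t (wd (c.lt F) s u) x = 0
    cases t with
    | G => exact res_on h.cl h.bu h.mc ih hx
    | _ => simp [Cfg.lt, ih x hx]

theorem la {s : M → c.m.A} (hs : ∀ x ∈ O, s x = 0) (l : List (La M)) :
    ∀ x ∈ O, wd (c.la F) s l x = 0 := by
  induction l with
  | nil => exact hs
  | cons t l ih =>
    intro x hx
    show c.la F t (wd (c.la F) s l) x = 0
    cases t with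
    | G => exact res_on h.cl h.bu h.ma ih hx
    | mul => simp [Cfg.la, ih x hx]

theorem sw (u : SW M) : ∀ x ∈ O, c.sw F u x = 0 := h.lt h.z u

theorem nw (u : SW M) : ∀ x ∈ O, nw F c u x = 0 :=
  h.lt (fun x hx => by simp [nP, h.z x hx]) u

theorem q0 (a : M → c.m.V) (v : SW M) (l : List (La M)) :
    ∀ x ∈ O, wd (c.la F) (fun y => c.m.q y (a y) (c.sw F v y)) l x = 0 :=
  h.la (fun x hx => by simp [h.sw v x hx, Md.q, rk1]) l

theorem qj (d : Co M lam r) (s : M → Eu lam) (u v : SW M) (l : List (La M)) :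
    ∀ x ∈ O, wd (c.la F) (c.qj F d s u v) l x = 0 := h.q0 _ v l

theorem aw (ξ : AW M) (hx : x ∈ O) : c.con.aw F ξ x = c.aw F ξ x := by
  obtain ⟨s, l⟩ := ξ
  cases s with
  | q u v => exact (h.con.q0 _ v l x hx).trans (h.q0 _ v l x hx).symm
  | cv => simp only [Cfg.aw, la_con]; rfl

theorem aws (L : List (AW M)) (hx : x ∈ O) : c.con.aws F L x = c.aws F L x :=
  congrArg List.sum (List.map_congr_left fun ξ _ => h.aw ξ hx)

theorem tC (B : Base M ι lam) (t : Tm M lam r n) (hx : x ∈ O) :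
    c.con.tC B F t.noz x = c.tC B F t x := by
  cases t with
  | ad g g' ξ => simp only [Tm.noz, Cfg.tC, h.aw ξ hx]
  | adn f g g' φ L => simp only [Tm.noz, Cfg.tC, h.aws L hx]
  | adj d s g g' u v l =>
    simp only [Tm.noz, Cfg.tC, h.qj _ _ _ _ _ x hx, smul_zero, ← Pi.zero_def, WithLp.toLp_zero,
      map_zero, Pi.zero_apply]
  | _ => rfl

theorem tc (B : Base M ι lam) (k : Cut M lam) (t : Tc M lam r) (hx : k.x0 ∈ O) :
    c.con.tc B F k t.noz = c.tc B F k t := by
  rcases t with ⟨m, n, w, _ | ξ | ⟨i | ⟨g, L⟩, s, u, v, l⟩⟩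
  · rfl
  · simp only [Tc.noz, Cfg.tc, Cfg.xi, h.aw ξ hx]
  · simp only [Tc.noz, Cfg.tc, Cfg.xi, h.qj _ _ _ _ _ _ hx, csE, Complex.zero_re, Complex.zero_im,
      zero_smul, add_zero, mul_zero, zero_mul, map_zero]
  · simp only [Tc.noz, Cfg.tc, Cfg.xi, h.qj _ _ _ _ _ _ hx, h.con.qj _ _ _ _ _ _ hx]

/-- densities of spinor words vanish -/
theorem den {χ : M → ℝ} (hχ : ∀ x ∉ O, χ x = 0) (T : Pk M lam) (u v : SW M) :
    (dcut χ (Den.sw F T u v)).h c = 0 ∧ ∀ f, (dcut χ (Den.sw F T u v)).gA c f = 0 := by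
  have k : ∀ (f : M → ℝ) w, (fun y => (f y * χ y) • pk c T y (Dgr80.nw F c w y)) = 0 :=
    fun f w => funext fun y => by
      by_cases hy : y ∈ O
      · simp [h.nw w y hy]
      · simp [hχ y hy]
  refine ⟨funext fun y => ?_, fun f => funext fun y => ?_⟩
  · by_cases hy : y ∈ O
    · simp [dcut, Den.sw, h.nw v y hy]
    · simp [dcut, hχ y hy]
  · simp only [dcut, Den.sw, k, swA, gc_zero h.bu h.mc, Pi.zero_apply, add_zero]

theorem nt (τ : M → ℝ) (hx : x ∈ O) : nt F c.W τ c.Φ x = 0 := by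
  have e : c.Φ =ᶠ[𝓝 x] fun _ => 0 := eventually_of_mem (h.cl.2.mem_nhds hx) h.z
  simp [Dgr80.nt, nab, Sob92.dv_congr e, h.z x hx]

end ZO
end gen

variable {E3 : Type} [NormedAddCommGroup E3] [NormedSpace ℝ E3] [FiniteDimensional ℝ E3]
  [MeasurableSpace E3] [BorelSpace E3]
  {H3 : Type} [TopologicalSpace H3] {I3 : ModelWithCorners ℝ E3 H3} [I3.Boundaryless]
  {Y : Type} [TopologicalSpace Y] [ChartedSpace H3 Y] [IsManifold I3 ∞ Y] [T2Space Y]
  [MeasurableSpace Y] [BorelSpace Y] [SecondCountableTopology Y] [CompactSpace Y]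
  {κ : Type} [Fintype κ] {D : YD I3 Y κ lam} {B : Base M (Option κ) lam}
  {G : Geo I M (Option κ) lam} {c : Cfg M (Option κ) lam r} (K : Nk D B G) (N : ND Y lam)

namespace ZO
variable (h : ZO G.F c O)
include h

theorem dg (hK : K.ψ.target ⊆ O) (j : N.J) : ((N.dg K).d j).h c.con = ((N.dg K).d j).h c ∧
    ∀ f, ((N.dg K).d j).gA c.con f = ((N.dg K).d j).gA c f := by
  have hχ : ∀ x ∉ O, K.χ x = 0 := fun x hx => χ_off K fun k => hx (hK k)
  have k : ∀ T u v, (dcut K.χ (Den.sw G.F T u v)).h c.con = (dcut K.χ (Den.sw G.F T u v)).h c ∧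
      ∀ f, (dcut K.χ (Den.sw G.F T u v)).gA c.con f = (dcut K.χ (Den.sw G.F T u v)).gA c f :=
    fun T u v => ⟨(h.con.den hχ T u v).1.trans (h.den hχ T u v).1.symm,
      fun f => ((h.con.den hχ T u v).2 f).trans ((h.den hχ T u v).2 f).symm⟩
  rcases j with j | j | j
  · show (K.den (N.d0 j)).h c.con = (K.den (N.d0 j)).h c ∧
      ∀ f, (K.den (N.d0 j)).gA c.con f = (K.den (N.d0 j)).gA c f
    cases N.d0 j with
    | sw u v => exact k _ _ _
    | cy d w d' w' =>
      have a := (sr_cy (c := c) (F := G.F) (K.cyc d)).wd (F := G.F) (w.map K.la)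
      have b := (sr_cy (c := c) (F := G.F) (K.cyc d')).wd (F := G.F) (w'.map K.la)
      exact ⟨by simp only [Nk.den, dcut, Den.sed, a.1, b.1],
        fun _ => by simp only [Nk.den, dcut, Den.sed, a.1, b.1, a.2, b.2]⟩
  · exact k _ _ _
  · exact k _ _ _

theorem ew (hK : K.ψ.target ⊆ O) : N.ew K c.con = N.ew K c := funext fun x => by
  by_cases hx : x ∈ O
  · simp only [ND.ew, Dgr80.ew, h.nt _ hx, h.con.nt _ hx]
    rfl
  · have : K.χ4 x = 0 := ct_zero fun k => hx (hK (K.dp_sub (by norm_num) k))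
    simp only [ND.ew, this, zero_mul]

variable [PreconnectedSpace Y]

theorem q1 (hx : x ∈ O) : (N.q1 K : Pt _ _ _ 0 0).C c.con x = (N.q1 K : Pt _ _ _ r n).C c x := by
  rcases nk_dich K h.cl with hK | hK
  · have e : (N.dg K).Iv G.F c.con = (N.dg K).Iv G.F c :=
      funext fun t => funext fun j => congrArg (wn _ _ _ · t) (h.dg K N hK j).1
    have b : ∀ j, (N.dg K).β G.F c.con j = (N.dg K).β G.F c j := fun j => by
      unfold DG.β DG.co; rw [e]; rfl
    have g : (N.dg K).gA G.F c.con x = (N.dg K).gA G.F c x := by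
      simp only [DG.gA, b, (h.dg K N hK _).2]; rfl
    simp only [ND.q1, DG.q1, g]
    rfl
  · exact ((van0_q1 K N).C _ x (hK hx)).trans ((van0_q1 K N).C c x (hK hx)).symm

theorem q2 (T : YT Y) (hx : x ∈ O) :
    (N.q2 K T : Pt _ _ _ 0 0).C c.con x = (N.q2 K T : Pt _ _ _ r n).C c x := by
  rcases nk_dich K h.cl with hK | hK
  · have v : ∀ C, (N.tc K C).val G.F K.τ N.δ c.con = (N.tc K C).val G.F K.τ N.δ c := fun C => by
      funext t
      simp only [TC.val, ND.tc, h.ew K N hK]
    have l1 : ∀ u : List (YL Y ⊕ YTC), (u.map (N.tl K)).map (tl G.F K.τ N.δ c.con) =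
        (u.map (N.tl K)).map (tl G.F K.τ N.δ c) := fun u => by
      rw [List.map_map, List.map_map]
      refine List.map_congr_left fun t _ => ?_
      cases t with
      | inl => rfl
      | inr C => exact congrArg (fun f => Lt.mul fun x => K.χ x * f (K.τ x)) (v C)
    have l2 : ∀ u : List (La Y ⊕ YTC), (u.map (N.ta K)).map (ta G.F K.τ N.δ c.con) =
        (u.map (N.ta K)).map (ta G.F K.τ N.δ c) := fun u => by
      rw [List.map_map, List.map_map]
      refine List.map_congr_left fun t _ => ?_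
      cases t with
      | inl => rfl
      | inr C => exact congrArg (fun f => La.mul fun x => K.χ x * f (K.τ x)) (v C)
    have t : N.tm K c.con 0 T = (N.tm K c n T).noz := by
      cases T <;> simp only [ND.tm, TT.tm, Tm.noz, l1, l2]
    simp only [ND.q2, ND.oc, v, t, h.tC B _ hx]
  · exact ((van0_q2 K N T).C _ x (hK hx)).trans ((van0_q2 K N T).C c x (hK hx)).symm

end ZO

end Crest.Agent.X212.Dead36
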