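import Crest.Agent.X212.Dead36.Gen
import Crest.Agent.X212.Cht98.Wld

/-! DEAD (helper36), part 2: where the spinor vanishes the equations of a job do not see it. -/

set_option autoImplicit false
set_option linter.unusedSectionVars false
noncomputable section
open scoped Manifold ContDiff Topology InnerProductSpace
open MeasureTheory Set Function Filter

namespace Crest.Agent.X212.Dead36
open An An.Job M Nd18 Wrd81 Eqv71

theorem tc_noz {M M' lam lam' : Type} [Fintype lam] [Fintype lam'] (t : Tp M M' lam lam') {r : ℕ}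
    (T : Tc M lam r) : t.tc T.noz = (t.tc T).noz := by
  rcases T with ⟨m, n, w, _ | ξ | ⟨i | ⟨g, L⟩, s, u, v, l⟩⟩ <;> rfl

section sums
variable {M ι lam K : Type} [Fintype ι] [Fintype lam] {r n : ℕ} {c : Cfg M ι lam r} {x : M}

theorem dsum_C [Fintype K] {p : K → Prop} {τ₀ : ∀ i, p i → Pt M ι lam 0 0}
    {τ : ∀ i, p i → Pt M ι lam r n} (h : ∀ i k, (τ₀ i k).C c.con x = (τ i k).C c x) :
    (Pt.dsum p τ₀).C c.con x = (Pt.dsum p τ).C c x := by simp only [Pt.dsum, h]

theorem fsum_C {τ₀ : K → Pt M ι lam 0 0} {τ : K → Pt M ι lam r n} {q : K →₀ ℝ}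
    (h : ∀ i, (τ₀ i).C c.con x = (τ i).C c x) : (fsum τ₀ q).C c.con x = (fsum τ q).C c x := by
  simp only [fsum, h]

end sums

variable {Wi : Type} {X : Mf 4} {A κ lam : Type} [Fintype A] [Fintype κ] [Fintype lam]
  [DecidableEq lam] {M : Mark X A κ} {W : World M} {N : ML M lam}
  {Λ : Lns W N} {A' h : Type} [Fintype A'] [DecidableEq A'] [Fintype h] {r n : ℕ}
  {J : Job Wi Λ A' h r n}

/-- **LEAF DEAD** -/
theorem dead (hJ : J.OK) (c : M.Cl) : J.Dead c := fun σ hσ q y H π hπ h0 => by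
  have mO : J.Θ y.s ∈ M.O c.1 := H.inf ▸ Mark.mem_O_cOf (hJ.par σ hσ _ (J.cl_dom H.cell))
  have z : ZO (J.G c y.s).F y.x (W.pc c π) := ⟨Cyl58.isClopen_pc W.toCaps hπ,
    Mp86.bumps_of_tame _ (Cht98.tame_W W J.m mO).choose_spec, mc_W H.sol.conn, mc_adW H.sol.conn,
    fun x hx => by_contra fun k => h0 ⟨x, hx, k⟩⟩
  have cn : ∀ a, ConnectedSpace (J.xs a).Y.M := fun a =>
    have := (M.bn a).con
    (J.g a).symm.toHomeomorph.surjective.connectedSpace (J.g a).symm.continuous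
  refine ⟨fun x hx => ?_, fun i hi => ?_⟩
  · refine congrArg₂ (· + ·) (dsum_C fun i k => ?_) (fsum_C fun w => congrArg₂ (· + ·)
      (congrArg (J.co w y.s • ·) ?_) (dsum_C fun i k => fsum_C fun T => ?_))
    · have := cn i.1
      exact z.q1 _ _ hx
    · refine Eq.trans ?_ (z.tC _ ((J.tp c).tm (J.tw w)) hx)
      show y.x.con.tC _ _ ((J.tp c).tm (J.tw w).noz) x = _
      cases J.tw w <;> rfl
    · have := cn i.1
      exact z.q2 _ _ _ hx
  · refine Finsupp.sum_congr fun w _ => congrArg (_ • ·) ?_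
    exact (congrArg _ (tc_noz _ _)).trans
      (z.tc _ _ _ (.inl ⟨_, hi ((hJ.nb i).2.sub ⟨(0, 0), rfl⟩), rfl⟩))

end Crest.Agent.X212.Dead36
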